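import Vale.Agent.P283R.Lk.W
import Vale.Agent.P283R.Lz.Kq

/-!
# P283R: the theorems in the words of `Lk/W`
-/

open CategoryTheory AlgebraicGeometry

namespace Vale.Agent.P283R.Lk

open Sl Sl.Var

theorem Steps.old {J : ℕ} {X Y : Var} {g : X.X ⟶ Y.X} (h : Steps J g) : Lz.Steps J g := by
  induction h with
  | one a b => exact .one a b
  | comp _ _ a b => exact .comp a b
  | small p a b c _ i => exact .small p a b c i
  | etale b c e u v w k _ i => exact .etale b c e u v w k i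

theorem Steps.new {J : ℕ} {X Y : Var} {g : X.X ⟶ Y.X} (h : Lz.Steps J g) : Steps J g := by
  induction h with
  | one a b => exact .one a b
  | comp _ _ a b => exact .comp a b
  | small p a b c _ i => exact .small p a b c i
  | etale b c e u v w k _ i => exact .etale b c e u v w k i

section

variable {C : ∀ (d : ℕ) (X Z : Var), (X.X ⟶ Z.X) → X.Form d → X.QDiv → Pt Z.X → Prop} {ε : ℝ}
  {R : Finset ℚ}

theorem Link.old {d X Z f ω B z} (h : Link ε R C d X Z f ω B z) :
    Lz.Link ε R C d X Z f ω B z := by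
  induction h with
  | base a b => exact .base a b
  | total t _ a b i => exact .total t i a b
  | near Ω t _ a b c e i => exact .near Ω t i a b c e
  | model _ a b i => exact .model i a b
  | etale π e _ a b c g i => exact .etale π e i a b c g

/-- one index for all data which are linked to a class, and for their neighbours -/
theorem lnk
    (h : On fun d X Z f ω B z => FanoType f ω ∧ NefOver f (-logCan ω B) ∧ C d X Z f ω B z)
    (d : ℕ) (hε : 0 < ε) (hR : ∀ r ∈ R, 0 ≤ r ∧ r ≤ 1) :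
    ∃ n : ℕ, 1 ≤ n ∧ ∀ (X Z : Var) (f : X.X ⟶ Z.X) (ω : X.Form d) (B : X.QDiv) (z : Pt Z.X),
      Link ε R C d X Z f ω B z → Stab R n f ω B z :=
  (Lz.lnk h d hε hR).imp fun _ u => ⟨u.1, fun X Z f ω B z v => u.2 X Z f ω B z v.old⟩

end

/-- nested towers over a class, with a real bound for the degree -/
theorem nest {a : ℝ} (ha : 0 < a) (b : ℕ → ℝ)
    {C : ∀ (d : ℕ) (X Z : Var), (X.X ⟶ Z.X) → X.Form d → Pt Z.X → Prop}
    (h : OnN fun d X Z f ω _ z => C d X Z f ω z) : OnN fun d Y W g η D w =>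
      ∃ (e J : ℕ) (T : Var) (p : Y.X ⟶ T.X) (h : T.X ⟶ W.X) (θ : T.Form e),
        dimension T.str = e ∧ 1 ≤ e ∧ θ.Nonzero ∧ p ≫ h = g ∧ J * a ≤ b d ∧ Steps J p ∧
        Lz.Triv p η D ∧ C e T W h θ w :=
  (Lz.nestE ha b h).mono fun _ _ _ _ _ _ _ ⟨e, J, T, p, h, θ, b1, b2, b3, b4, l, b5, b6⟩ =>
    ⟨e, J, T, p, h, θ, b1, b2, b3, b4, l, b5.old, b6⟩

/-- quotients of fibrations of low complexity and of spherical fibrations -/
theorem on_q : OnN fun d _ _ f _ _ z => QuoOf (d := d)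
    (fun _ _ g η w => Lz.Cplx g η w ∨ ∃ V, w.In V ∧ Ly.Sph (pre g V)) f z := Ly.on_q

/-- with few Cox generators -/
theorem on_q2 (M : ℕ → ℕ) : OnN fun d _ _ f _ _ z => QuoOf (d := d) (fun _ _ g η w =>
    Lz.Cplx g η w ∨ ∃ V, w.In V ∧ (Ly.Sph (pre g V) ∨ Ly.Cox (M d) (pre g V))) f z :=
  Ly.on_q2 M

end Vale.Agent.P283R.Lk
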