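import Vale.Agent.P283R.Lk.W

/-!
# Bounded klt complements: finite covers
-/

open CategoryTheory AlgebraicGeometry

namespace Vale.Agent.P283R.Lk

open Sl Sl.Var

/-- There is a finite surjective morphism `π : Y → X` of degree at most `J` (the functions `b` span
the function field of `Y` over that of `X`) and an effective `B'` with
`K_Y + B' = π^* (K_X + B)`: `1 - B'(E) = r (1 - B(F))` for every prime divisor `E` of `Y`, with the
image `F` and the ramification index `r`. With the Stein factorization `Y → W → Z` of `Y → X → Z`,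
the contraction `g : Y → W` is of Fano type, `-(K_Y + B')` is nef over `W`, and `C` holds at all
points `w` over `z`. -/
def Cover {X Z : Var} {d : ℕ} (J : ℕ)
    (C : ∀ Y W : Var, (Y.X ⟶ W.X) → Y.Form d → Y.QDiv → Pt W.X → Prop)
    (f : X.X ⟶ Z.X) (B : X.QDiv) (z : Pt Z.X) : Prop :=
  ∃ (Y W : Var) (g : Y.X ⟶ W.X) (π : Y.X ⟶ X.X) (e : W.X ⟶ Z.X) (ω : Y.Form d) (B' : Y.QDiv)
    (b : Fin J → Y.K), IsFinite π ∧ Surjective π ∧ π ≫ X.str = Y.str ∧
    (∀ t, ∃ c : Fin J → _, t = ∑ j, toRat (comap π (generic Y.X) (c j)) * b j) ∧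
    (∀ E : Y.PrimeDiv, ∃ (F : X.PrimeDiv) (r : ℕ), E.1.map π = F.1 ∧
      (∀ a, ord (toRat (comap π E.1 a)) E = r * ord (toRat a) F) ∧ 0 ≤ B'.coeff E ∧
      1 - B'.coeff E = r * (1 - B.coeff F)) ∧
    Contr g ∧ IsFinite e ∧ g ≫ e = π ≫ f ∧ ω.Nonzero ∧ Fano g ω ∧
    Nef g (-logCan ω B') ∧ ∀ w : Pt W.X, w.map e = z → C Y W g ω B' w

end Vale.Agent.P283R.Lk
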