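import Vale.Agent.P283R.Lk.Cv
import Vale.Agent.P283R.Lz.Cv2

/-!
# P283R: descent along finite covers, in the words of `Lk/W`
-/

open CategoryTheory AlgebraicGeometry

namespace Vale.Agent.P283R.Lk

open Sl Sl.Var

variable {C : ∀ (d : ℕ) (X Z : Var), (X.X ⟶ Z.X) → X.Form d → X.QDiv → Pt Z.X → Prop}

/-- descent along covers whose degree is bounded in terms of the dimension -/
theorem on_cover (h : OnN C) (J : ℕ → ℕ) : On fun d _ _ f _ B z => Cover (J d) (C d) f B z :=
  Lz.on_cover h J

/-- the same with the hypotheses of the conjecture -/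
theorem onN_cover (h : OnN C) (J : ℕ → ℕ) : OnN fun d _ _ f _ B z => Cover (J d) (C d) f B z :=
  Lz.onN_cover h J

/-- a class together with the data covered by it -/
theorem onN_or_cover (h : OnN C) (J : ℕ → ℕ) :
    OnN fun d X Z f ω B z => C d X Z f ω B z ∨ Cover (J d) (C d) f B z :=
  h.or (onN_cover h J)

end Vale.Agent.P283R.Lk
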