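import Vale.Agent.P283R.Lk.On
import Vale.Agent.P283R.Lk.Wn
import Vale.Agent.P283R.Lz.Oc

/-!
# P283R: chains of resolved towers in the words of `Lk/W`
-/

open CategoryTheory AlgebraicGeometry

namespace Vale.Agent.P283R.Lk

open Sl Sl.Var

theorem Res.old {J d : ℕ} {X Y : Var} {g : X.X ⟶ Y.X} {ω : X.Form d} (h : Res J g ω) :
    Lz.Res J g ω :=
  let ⟨a, X', ρ, p, η, b1, b2, b3, b4, b5, b6⟩ := h
  ⟨a, X', ρ, p, η, b1, b2, b3, b4, b5.old, fun E => b6 E _ rfl⟩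

theorem Res.new {J d : ℕ} {X Y : Var} {g : X.X ⟶ Y.X} {ω : X.Form d} (h : Lz.Res J g ω) :
    Res J g ω :=
  let ⟨a, X', ρ, p, η, b1, b2, b3, b4, b5, b6⟩ := h
  ⟨a, X', ρ, p, η, b1, b2, b3, b4, .new b5, fun E _ e => e ▸ b6 E⟩

/-- the class contains the towers of Fano type -/
theorem Steps.stages {J n d : ℕ} {X Y : Var} {g : X.X ⟶ Y.X} {ω : X.Form d} (h : Steps J g)
    (b : ω.Nonzero) (f : Fano g ω) : Stages J n g ω := .one (.new (h.old.res b f))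

theorem Stages.old {J n d : ℕ} {X Y : Var} {g : X.X ⟶ Y.X} {ω : X.Form d} (h : Stages J n g ω) :
    Lz.Stages J n g ω := by
  induction h with
  | one a => exact .one a.old
  | cons θ a b c _ i => exact .cons θ a b c.old i

/-- over a class -/
theorem res (J : ℕ → ℕ) {C : ∀ (d : ℕ) (X Z : Var), (X.X ⟶ Z.X) → X.Form d → Pt Z.X → Prop}
    (h : OnN fun d X Z f ω _ z => C d X Z f ω z) : OnN fun d Y W g η D w =>
      ∃ (e : ℕ) (T : Var) (a : Y.X ⟶ T.X) (h : T.X ⟶ W.X) (θ : T.Form e),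
        dimension T.str = e ∧ 1 ≤ e ∧ θ.Nonzero ∧ a ≫ h = g ∧ Res (J d) a η ∧
        Lz.Triv a η D ∧ C e T W h θ w :=
  (Lz.res J h).mono fun _ _ _ _ _ _ _ ⟨e, T, a, h, θ, b1, b2, b3, b4, b5, b6⟩ =>
    ⟨e, T, a, h, θ, b1, b2, b3, b4, b5.old, b6⟩

/-- chains over a class -/
theorem stages (J n : ℕ → ℕ)
    {C : ∀ (d : ℕ) (X Z : Var), (X.X ⟶ Z.X) → X.Form d → Pt Z.X → Prop}
    (h : OnN fun d X Z f ω _ z => C d X Z f ω z) : OnN fun d Y W g η D w =>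
      ∃ (e : ℕ) (T : Var) (a : Y.X ⟶ T.X) (h : T.X ⟶ W.X) (θ : T.Form e),
        dimension T.str = e ∧ 1 ≤ e ∧ θ.Nonzero ∧ a ≫ h = g ∧ Stages (J d) (n d) a η ∧
        Lz.Triv a η D ∧ C e T W h θ w :=
  (Lz.stages J n h).mono fun _ _ _ _ _ _ _ ⟨e, T, a, h, θ, b1, b2, b3, b4, b5, b6⟩ =>
    ⟨e, T, a, h, θ, b1, b2, b3, b4, b5.old, b6⟩

/-- chains over a class of germs -/
theorem stages_germ (J n : ℕ → ℕ) {S : ℕ → ∀ Z : Var, Pt Z.X → Prop}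
    (h : On fun d _ Z f ω B z => Crepant f ω B z ∧ S d Z z) : OnN fun d _ Z f ω B z =>
    ∃ e : ℕ, dimension Z.str = e ∧ 1 ≤ e ∧ Stages (J d) (n d) f ω ∧ Lz.Triv f ω B ∧ S e Z z :=
  (Lz.stages_germ J n h).mono fun _ _ _ _ _ _ _ ⟨e, a, b, c, t⟩ => ⟨e, a, b, c.old, t⟩

end Vale.Agent.P283R.Lk
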