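import Vale.Agent.P283R.Lz.W

/-!
# Bounded klt complements: the question, towers, quotients, families
-/

open CategoryTheory AlgebraicGeometry

namespace Vale.Agent.P283R.Lk

open Sl Sl.Var Lz

section

variable {X Z : Var} {d : ℕ}

/-- `f_* O_X = O_Y`. -/
def Fns {X Y : Scheme.{0}} (f : X ⟶ Y) : Prop := ∀ U, IsIso (f.app U)

/-- A contraction: a proper surjective morphism over `ℂ` with `f_* O_X = O_Z`. -/
def Contr (f : X.X ⟶ Z.X) : Prop :=
  f ≫ Z.str = X.str ∧ IsProper f ∧ Surjective f ∧ Fns f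

/-- The `ℚ`-Cartier divisor `D` is nef over `Z`: its degree on the curves contracted by `f` is
nonnegative. -/
def Nef (f : X.X ⟶ Z.X) (D : X.PrimeDiv → ℚ) : Prop :=
  ∀ C : Curve X, (∃ t, ∀ z : Pt C.C, (z.map C.ι).map f = t) → ∀ m e, C.IsDeg D m e → 0 ≤ e

/-- `D` is ample over `Z`: some multiple `m D` is Cartier, and `O(m D)` is ample on the inverse
images of the affine open subsets `U` of `Z`: the points `x` of `f⁻¹ U` lie in affine open sets of
the form `{s ≠ 0}`, where `s` is a section of some `O(k m D)` over `f⁻¹ U`. -/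
def Ample (f : X.X ⟶ Z.X) (D : X.PrimeDiv → ℚ) : Prop :=
  ∃ m, 0 < m ∧ (∀ x, ∃ g, LocalEq D m g x) ∧ ∀ U : Z.X.Opens, IsAffineOpen U →
    ∀ x : Pt X.X, x.In (pre f U) → ∃ (k : ℕ) (s : X.K) (W : X.X.Opens), 0 < k ∧
      (∀ y : X.PrimeDiv, y.1.In (pre f U) → 0 ≤ (ord s y : ℚ) + k * m * D y) ∧ IsAffineOpen W ∧
      x.In W ∧ ∀ x' : Pt X.X, x'.In W ↔ x'.In (pre f U) ∧ LocalEq D (k * m) s⁻¹ x'

/-- `X` is of Fano type over `Z`: for some `C` the pair `(X, C)` is klt and `-(K_X + C)` is ample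
over `Z`. -/
def Fano (f : X.X ⟶ Z.X) (ω : X.Form d) : Prop :=
  ∃ C : X.QDiv, Pair (0 < ·) (all X.X) ω C ∧ Ample f (-logCan ω C)

/-- `(X, B)` has a klt `n`-complement over `z`: on `f⁻¹ U`, for some open neighbourhood `U` of `z`,
there is `Λ ≥ B` such that `(f⁻¹ U, Λ)` is klt and `n (K_X + Λ)` is the divisor of a rational
function. -/
def Compl (f : X.X ⟶ Z.X) (ω : X.Form d) (B : X.QDiv) (n : ℕ) (z : Pt Z.X) : Prop :=
  ∃ (U : Z.X.Opens) (Λ : X.QDiv) (φ : X.K), z.In U ∧
    (∀ y : X.PrimeDiv, y.1.In (pre f U) → B.coeff y ≤ Λ.coeff y) ∧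
    Pair (0 < ·) (pre f U) ω Λ ∧ ∀ x : Pt X.X, x.In (pre f U) → LocalEq (logCan ω Λ) n φ x

end

/-- The least class of morphisms which contains the contractions of relative dimension at most one,
is closed under composition, contains `g` if it contains `π ≫ g` for a small birational
contraction `π`, and contains a contraction `g` if it contains the base change `g'` of `g` along an
étale morphism `e`, not necessarily surjective, of degree at most `j`; the index bounds the product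
of the degrees of nested base changes. -/
inductive Steps : ℕ → ∀ {X Y : Var}, (X.X ⟶ Y.X) → Prop
  | one {J : ℕ} {X Y : Var} {g : X.X ⟶ Y.X} : Contr g →
      dimension X.str ≤ dimension Y.str + 1 → Steps (J + 1) g
  | comp {J : ℕ} {X Y W : Var} {g : X.X ⟶ Y.X} {h : Y.X ⟶ W.X} : Steps J g → Steps J h →
      Steps J (g ≫ h)
  | small {J : ℕ} {X' X Y : Var} {π : X'.X ⟶ X.X} {g : X.X ⟶ Y.X} (p : Iso X X') :
      Contr π → IsPull π p → (∀ E : X'.PrimeDiv, (E.1.map π).CodimOne) →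
      Steps J (π ≫ g) → Steps J g
  | etale {J j k : ℕ} {X' Y' X Y : Var} {g' : X'.X ⟶ Y'.X} {π : X'.X ⟶ X.X} {e : Y'.X ⟶ Y.X}
      {g : X.X ⟶ Y.X} (b : Fin j → X'.K) : Contr g → Etale e → e ≫ Y.str = Y'.str →
      IsPullback π g' g e →
      (∀ a, ∃ (y : _) (c : Fin j → _), a = ∑ i, toRat (comap π y (c i)) * b i) → j * k ≤ J →
      Steps k g' → Steps J g

/-- `X = Y / G` for a finite group `G` which acts freely in codimension one, `Y → W → Z` is the
Stein factorisation, `w` is the only point over `z`, and `Y → W` lies in the class `C` at `w`. -/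
def QuoOf {d : ℕ} (C : ∀ Y W : Var, (Y.X ⟶ W.X) → Y.Form d → Pt W.X → Prop) {X Z : Var}
    (f : X.X ⟶ Z.X) (z : Pt Z.X) : Prop :=
  ∃ (Y W : Var) (π : Y.X ⟶ X.X) (g : Y.X ⟶ W.X) (κ : W.X ⟶ Z.X) (η : Y.Form d) (w : Pt W.X),
    FinQuot π ∧ IsFinite κ ∧ g ≫ κ = π ≫ f ∧ (∀ w' : Pt W.X, w'.map κ = z ↔ w' = w) ∧
    η.Nonzero ∧ Contr g ∧ C Y W g η w

/-- The hypotheses of the conjecture: `(X, B)` is an `ε`-lc pair of dimension `d ≥ 1` with the
coefficients in `R`, `f` is a contraction of Fano type, `-(K + B)` is nef over `Z`, and `z` is a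
closed point. -/
def Dat (ε : ℝ) (R : Finset ℚ) {d : ℕ} {X Z : Var} (f : X.X ⟶ Z.X) (ω : X.Form d) (B : X.QDiv)
    (z : Pt Z.X) : Prop :=
  1 ≤ d ∧ dimension X.str = d ∧ ω.Nonzero ∧ Pair (ε ≤ ·) (all X.X) ω B ∧
    (∀ y, B.coeff y ≠ 0 → B.coeff y ∈ R) ∧ Contr f ∧ Fano f ω ∧
    Nef f (-logCan ω B) ∧ z.Closed

/-- `X` and `X'` are birational over `Z`, and `K_X + B` is at most the pull back of `K_X' + B'`
along every prime divisor `E` of `X`; `x'` is a point in the centre of `E` on `X'`. -/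
def Low {d : ℕ} {X X' Z : Var} (f : X.X ⟶ Z.X) (B : X.QDiv) (f' : X'.X ⟶ Z.X) (ω' : X'.Form d)
    (B' : X'.QDiv) : Prop :=
  ∃ q : Iso X' X, (∀ (x : Pt X.X) (x' : Pt X'.X) (a : St Z.X (x.map f)) (a' : St Z.X (x'.map f')),
      toRat a = toRat a' → q.app (toRat (comap f' x' a')) = toRat (comap f x a)) ∧
    ∀ (E : X.PrimeDiv) (x' : Pt X'.X) m g, (∀ a, RegAt a x' → RegAt (q.app a) E.1) →
      LocalEq (logCan ω' B') m g x' → m * (formOrd ω' q E + B.coeff E) ≤ ord (q.app g) E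

/-- `(f : X → Z, B, z)` is the fibre `{t = c}` of the family `(F : T → S, D)` at the point `s`:
`i` identifies `X` with the zero scheme of the nonzero regular function `t - c` on `T`, `B` is the
restriction of `D` (a local equation `a` of `m D` at the generic point of a prime divisor `y` of
`X` restricts to a local equation of `m B`), and `Z` is a subvariety of `S` in which `z` is the
point `s`. -/
def Fib {S T X Z : Var} (F : T.X ⟶ S.X) (t : T.K) (D : T.QDiv) (s : Pt S.X) (f : X.X ⟶ Z.X)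
    (B : X.QDiv) (z : Pt Z.X) : Prop :=
  ∃ (i : X.X ⟶ T.X) (j : Z.X ⟶ S.X) (c : ℂ) (u : T.K), u = t - constants T.str c ∧
    IsPreimmersion j ∧ f ≫ j = i ≫ F ∧ z.map j = s ∧
    IsPreimmersion i ∧ i ≫ T.str = X.str ∧ u ≠ 0 ∧ (∀ x, RegAt u x) ∧
    (∀ x : Pt T.X, RegAt u⁻¹ x ∨ ∃ y : Pt X.X, y.map i = x) ∧
    (∀ y : Pt X.X, ∃ a, toRat a = u ∧ ∀ b, comap i y b = 0 ↔ a ∣ b) ∧
    ∀ y : X.PrimeDiv, ∃ (m : ℕ) (a : St T.X (y.1.map i)), 0 < m ∧
      LocalEq D.coeff m (toRat a) (y.1.map i) ∧ LocalEq B.coeff m (toRat (comap i y.1 a)) y.1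

/-- The least class of lc data such that: the `ε`-lc data of the class `C` lie in it (`base`); with
the fibre of a family `(F : T → S, D)` at a point `s` so do the family at `s` (`total`) and the data
which occur as fibres of the family at points arbitrarily close to `s` (`near`); with a datum so do
the birational models below it (`model`); a datum lies in the class if an étale base change does
(`etale`). -/
inductive Link (ε : ℝ) (R : Finset ℚ)
    (C : ∀ (d : ℕ) (X Z : Var), (X.X ⟶ Z.X) → X.Form d → X.QDiv → Pt Z.X → Prop) :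
    ∀ (d : ℕ) (X Z : Var), (X.X ⟶ Z.X) → X.Form d → X.QDiv → Pt Z.X → Prop
  | base {d X Z f ω B z} : Dat ε R f ω B z → C d X Z f ω B z → Link ε R C d X Z f ω B z
  | total {d X Z f ω B z T S F Ω D s} (t : T.K) : Link ε R C d X Z f ω B z →
      Dat 0 R F Ω D s → Fib F t D s f B z → Link ε R C (d + 1) T S F Ω D s
  | near {d X Z f ω B z} {T S : Var} {F : T.X ⟶ S.X} {D s X' Z' f' ω' B' z'}
      (Ω : T.Form (d + 1)) (t : T.K) : Link ε R C d X Z f ω B z → Dat 0 R F Ω D s →
      Fib F t D s f B z → Dat 0 R f' ω' B' z' →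
      (∀ U, s.In U → ∃ s', s'.In U ∧ Fib F t D s' f' B' z') → Link ε R C d X' Z' f' ω' B' z'
  | model {d X Z f ω B z X' f' ω' B'} : Link ε R C d X' Z f' ω' B' z →
      Dat 0 R f ω B z → Low f B f' ω' B' → Link ε R C d X Z f ω B z
  | etale {d X Z f ω B z Y W g ω' B' w} (π : Y.X ⟶ X.X) (e : W.X ⟶ Z.X) :
      Link ε R C d Y W g ω' B' w → Dat 0 R f ω B z →
      (Etale e ∧ e ≫ Z.str = W.str ∧ w.map e = z ∧ w.Closed) →
      (IsPullback π g f e ∧ π ≫ X.str = Y.str) → Same π B'.coeff B.coeff →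
      Link ε R C d X Z f ω B z

/-- `(X, B)` has a klt `n`-complement over `z`, and so have its neighbours: if the datum is the
fibre at `s` of a family `(F : T → S, D)`, then all fibres of the family at the points `s'` of some
open neighbourhood `U` of `s` have klt `n`-complements. -/
def Stab (R : Finset ℚ) (n : ℕ) {d : ℕ} {X Z : Var} (f : X.X ⟶ Z.X) (ω : X.Form d) (B : X.QDiv)
    (z : Pt Z.X) : Prop :=
  Compl f ω B n z ∧ ∀ (T S : Var) (F : T.X ⟶ S.X) (Ω : T.Form (d + 1)) D t s,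
    Dat 0 R F Ω D s → Fib F t D s f B z → ∃ U, s.In U ∧
      ∀ (X' Z' : Var) (f' : X'.X ⟶ Z'.X) (ω' : X'.Form d) B' z' (s' : Pt S.X),
        Dat 0 R f' ω' B' z' → s'.In U → Fib F t D s' f' B' z' →
        Compl f' ω' B' n z'

end Vale.Agent.P283R.Lk
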